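import Vale.Agent.P307.R2.H319.OverR
import Vale.Agent.P307.R2.H914.JrPg

/-!
Joint reflection of the closed traces of a boundary over the closed traces of the sets which are
isolated over the boundary.
-/

set_option linter.unusedSectionVars false

universe u v w

open FirstOrder Cardinal Set

namespace Vale.Agent.P307.R2.H319

open Vale.Agent.P307 Vale.Agent.P307.H304 Vale.Agent.P307.R2.H287 Vale.Agent.P307.R2.H1
  Vale.Agent.P307.R2.H806 Vale.Agent.P307.R2.H971 Vale.Agent.P307.R2.H541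
  Vale.Agent.P307.R2.H541.PG Vale.Agent.P307.R2.H533 Vale.Agent.P307.R2.H650
  Vale.Agent.P307.R2.H578 Vale.Agent.P307.R2.H83 Vale.Agent.P307.R2.H732
  Vale.Agent.P307.R2.H427 Vale.Agent.P307.R2.H914 Language.Structure Language.Substructure
open Vale.Agent.P307.R2.H68 (Clo exists_clo)
open Vale.Agent.P307.R2.H301 (TrN)
open Vale.Agent.P307.R2.H514 (tH)

open scoped Classical

section abs

variable {ι : Type v} {C : Type u} {M : PG C} {σ₁ : Cardinal.{u}}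
  {A : Finset ι → Set C} {F : Finset (Finset ι)} {N : Set C}

/-- The coherent isomorphisms of the enlargements of the family `A` onto the families which reflect
at the level `σ₁` are elementary on `A`. -/
def LeHyp (M : PG C) (σ₁ : Cardinal.{u}) (A : Finset ι → Set C) (F : Finset (Finset ι)) : Prop :=
  ∀ (P T : Finset ι → Set C) (φ : Finset ι → Equiv.Perm C), IFam M P F → IRef M P F →
    IFam M T F → H83.IRefL M σ₁ T F → Coh M F P T φ → (∀ v ∈ F, A v ⊆ P v) → P ∅ = A ∅ →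
      M.LE (umap F P φ) (iun A F)

/-- The bottom of a scaffold is not changed. -/
theorem scaf_empty {m : ℕ} {P : ℕ → Finset ι → Set C} {r : ℕ → Finset ι} {Q : ℕ → Set C}
    (hF : Down F) (h : Scaf M A F N m P r Q) : P m ∅ = A ∅ := by
  have key : ∀ j ≤ m, P j ∅ = A ∅ := by
    intro j
    induction j with
    | zero => exact fun _ => h.zero ∅ hF.1
    | succ j ih =>
      intro hj
      rw [(h.blk j hj).same ∅ hF.1 fun h1 =>
        (h.ne j hj).ne_empty (Finset.subset_empty.1 h1)]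
      exact ih (Nat.le_of_lt hj)
  exact key m le_rfl

end abs

variable {ι : Type v} {L : Language.{u, u}} {K : AEC L} {ℓ θ τ σ₀ σ₁ : Cardinal.{u}}
  {κf α : Cardinal.{u} → Cardinal.{u}} {C : Type u} [L.Structure C]

section

variable (h₀ : BasePt K ℓ κf α θ) (hK : K.IsLS ℓ)
  (hunb : ∀ ν, ν < κf ν ∧ K.CategoricalIn (κf ν)) (hst : Stab K ℓ α (H287.thr κf))
  (hCm : K.mem C) (hs : Sat K θ C) (hCc : #C = Order.succ θ)

include h₀ hK hunb hst hCm hs hCc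

/-- **Joint reflection of the closed traces of an arbitrary boundary**, over the closed traces of
the union of the boundary and of a set which is isolated over it. -/
theorem pg_hrefl (hτ : BasePt K ℓ κf α τ) (hτθ : τ < θ)
    (hFr : FreeM (pg h₀ hK hunb hst hCm hs hCc)) {s : Finset ι}
    (hMd : ∀ j, 1 ≤ j → j + 1 < s.card → Md (pg h₀ hK hunb hst hCm hs hCc) ι j)
    (hTX : ∀ w ∈ s.ssubsets, w.Nonempty → ∀ A : Finset ι → Set C,
      IFam (pg h₀ hK hunb hst hCm hs hCc) A w.ssubsets →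
      IRef (pg h₀ hK hunb hst hCm hs hCc) A w.ssubsets →
      ∀ σ < θ, ∀ ρ < θ, (pg h₀ hK hunb hst hCm hs hCc).TmL σ (tH (max ℓ σ)) ρ (ibd A w))
    (hσ₀ : σ₀ < τ) (hFU : ∀ w ∈ s.ssubsets, w.Nonempty → ∀ A : Finset ι → Set C,
      IFam (pg h₀ hK hunb hst hCm hs hCc) A w.ssubsets →
      H83.IRefL (pg h₀ hK hunb hst hCm hs hCc) σ₀ A w.ssubsets →
      IRef (pg h₀ hK hunb hst hCm hs hCc) A w.ssubsets)
    (hSH : ∀ j < s.card, SHA (pg h₀ hK hunb hst hCm hs hCc) τ ι j) {A : Finset ι → Set C}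
    (hA : IFam (pg h₀ hK hunb hst hCm hs hCc) A s.ssubsets)
    (hR : IRef (pg h₀ hK hunb hst hCm hs hCc) A s.ssubsets)
    (hTs : ∀ σ < θ, ∀ ρ < θ, (pg h₀ hK hunb hst hCm hs hCc).TmL σ (tH (max ℓ σ)) ρ (ibd A s))
    (hσ₁ : σ₁ < τ) (hLE : LeHyp (pg h₀ hK hunb hst hCm hs hCc) σ₁ A s.ssubsets)
    {R b : Set C} (hRc : #R ≤ θ) (hb : b ⊆ ibd A s) (hbc : #b < θ)
    (hI : (pg h₀ hK hunb hst hCm hs hCc).Isol b (ibd A s) R) :
    JRp (pg h₀ hK hunb hst hCm hs hCc) τ A s.ssubsets (ibd A s ∪ R) := by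
  have hM := pg_calc h₀ hK hunb hst hCm hs hCc
  have hB := pg_big h₀ hK hunb hst hCm hs hCc
  have hτ0 : ℵ₀ ≤ τ := aleph0_le_pt hτ hK
  have hcard : ∀ v ∈ s.ssubsets, v.card < s.card := fun v hv =>
    Finset.card_lt_card (Finset.mem_ssubsets.1 hv)
  refine jr_stepN hM (pg_twoLv h₀ hK hunb hst hCm hs hCc hτ hτθ) hSH rfl fun d hd => ?_
  obtain ⟨κ, hκd⟩ : ∃ κ, κ = max d ℓ := ⟨_, rfl⟩
  have hκ : κ < τ := by
    rw [hκd]
    exact max_lt hd hτ.pt.lt
  have hHκ : tH (max ℓ κ) < τ := tH_lt hτ hst hκ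
  have hκH : κ + tH (max ℓ κ) < τ := add_lt_of_lt hτ0 hκ hHκ
  have hG : ∀ v ∈ s.ssubsets, 2 ≤ v.card → GDI (pg h₀ hK hunb hst hCm hs hCc) ι v.card :=
    fun v hv _ => gdi_of_md hM hB.ls v.card fun j hj hjv => hMd j hj (by
      have := hcard v hv
      omega)
  obtain ⟨τ', hτ', hlel⟩ := exists_lel_low_coh (M := pg h₀ hK hunb hst hCm hs hCc) hM hB hτ0
    hτθ.le (pg_upAt h₀ hK hunb hst hCm hs hCc hτ hτθ.le) (H := fun σ => tH (max ℓ σ))
    (fun σ hσ => tH_lt hτ hst hσ) s.ssubsets hA.down hG (κ + tH (max ℓ κ)) hκH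
  obtain ⟨σ, hσd⟩ : ∃ σ, σ = max σ₁ (max σ₀ (max τ' κ)) := ⟨_, rfl⟩
  have hστ : σ < τ := by
    rw [hσd]
    exact max_lt hσ₁ (max_lt hσ₀ (max_lt hτ' hκ))
  have hσ1σ : σ₁ ≤ σ := by
    rw [hσd]
    exact le_max_left _ _
  have hσ0σ : σ₀ ≤ σ := by
    rw [hσd]
    exact (le_max_left _ _).trans (le_max_right _ _)
  have hτ'σ : τ' ≤ σ := by
    rw [hσd]
    exact ((le_max_left _ _).trans (le_max_right _ _)).trans (le_max_right _ _)
  have hκσ : κ ≤ σ := by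
    rw [hσd]
    exact ((le_max_right _ _).trans (le_max_right _ _)).trans (le_max_right _ _)
  have hdκ : d ≤ κ := by
    rw [hκd]
    exact le_max_left _ _
  have hℓκ : ℓ ≤ κ := by
    rw [hκd]
    exact le_max_right _ _
  have hℓσ : ℓ ≤ σ := hℓκ.trans hκσ
  have hσθ : σ < θ := hστ.trans hτθ
  obtain ⟨c, hc⟩ := exists_chart h₀ hK hunb hst hCm hs hCc hℓσ hσθ s.ssubsets
  have hgen := c.stdGen h₀ hK hunb hst hCm hs hCc hℓσ hσθ hc fun v hv hv0 A' hA' hR' =>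
    hFU v hv hv0 A' hA' (hR'.level hσ0σ)
  have hXc : #(ibd A s) ≤ (pg h₀ hK hunb hst hCm hs hCc).χ := by
    rw [← iun_ssubsets]
    exact card_iun fun v hv => ((pg h₀ hK hunb hst hCm hs hCc).S_card (hA.mem v hv)).le
  have hNc : #(ibd A s ∪ R : Set C) ≤ (pg h₀ hK hunb hst hCm hs hCc).χ :=
    (mk_union_le _ _).trans (add_le_of_le (pg h₀ hK hunb hst hCm hs hCc).hχ hXc hRc)
  obtain ⟨m, P, r, Q, β, φ, h1, h2, h3, h4, h5⟩ := exists_scaf hM hB.ls hFr
    (fun j hj v hv hjv => hMd j hj (by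
      have := hcard v hv
      omega)) hgen hA hR hNc
  have hIT := c.ifam h₀ hK hunb hst hCm hs hCc hℓσ hσθ β hA.down
  have hRT := c.irefLev h₀ hK hunb hst hCm hs hCc hℓσ hσθ β s.ssubsets
  have hLEL := hlel (P m) (c.St β) φ h2 h3 hIT (hRT.level hτ'σ)
    (fun w hw hw0 σ' hσ' ρ' hρ' => hTX w hw hw0 (P m) (h2.sub (down_ssubsets hw0)
      (H533.ssubsets_sub hA.down hw)) (h3.mono (H533.ssubsets_sub hA.down hw)) σ'
      (hσ'.trans hτθ) ρ' hρ') h5
  have hsub : ibd A s ⊆ iun (P m) s.ssubsets := by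
    intro x hx
    rw [← iun_ssubsets] at hx
    obtain ⟨v, hv, hx⟩ := hx
    exact ⟨v, hv, h1.le v hv hx⟩
  have hLEX := hLE (P m) (c.St β) φ h2 h3 hIT (hRT.level hσ1σ) h5 h1.le (scaf_empty hA.down h1)
  rw [iun_ssubsets] at hLEX
  have hTV : (pg h₀ hK hunb hst hCm hs hCc).TV (ibd A s) (iun (P m) s.ssubsets) := by
    intro B hB' hBc E hE hEc
    obtain ⟨g, hg, h6, h7⟩ := h4 E hE hEc B (hB'.trans subset_union_left) hBc
    refine ⟨g, hg, h6, fun e he => ?_⟩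
    obtain ⟨v, hv, hev⟩ := hE he
    exact ⟨v, Finset.mem_ssubsets.1 hv, h7 v hv e he hev⟩
  obtain ⟨f', hf', hf'L⟩ := exists_lel_over (pg_real h₀ hK hunb hst hCm hs hCc) hsub hXc hLEX
    (hκ.trans hτθ) (hHκ.trans hτθ) hLEL (fun ρ hρ => hTs κ (hκ.trans hτθ) ρ hρ) hTV hb hbc hI
  have hsh : ShiftD (pg h₀ hK hunb hst hCm hs hCc) τ d (c.St β) s.ssubsets :=
    (pg_shift h₀ hK hunb hst hCm hs hCc hℓσ hστ hτθ.le (hτ.pow σ hστ).le
      (c.isStd hτ0 β _)).level (hdκ.trans hκσ)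
  refine ⟨m, P, r, Q, h1, (shiftN_trans hτ0 (hK.1.trans hℓκ) hdκ hsh subset_union_left hf'L
    fun v hv => ?_).mono (union_subset_union_left R hsub)⟩
  rw [← h5.img v hv]
  exact image_congr fun a ha => by rw [hf' a ⟨v, hv, ha⟩, ← h5.umap_eq h2 h3 hv ha]

end

end Vale.Agent.P307.R2.H319
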