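import Vale.Agent.P307.R2.H319.Jr2
import Vale.Agent.P307.R2.H301.Din.Rk2
import Vale.Agent.P307.R2.H301.Din.Rows

/-!
Joint reflection for the pairs of models, at all the pairs of base points.
-/

universe u

open FirstOrder Cardinal Set

namespace Vale.Agent.P307.R2.H319

open Vale.Agent.P307 Vale.Agent.P307.H304 Vale.Agent.P307.R2.H287 Vale.Agent.P307.R2.H1
  Vale.Agent.P307.R2.H541 Vale.Agent.P307.R2.H301 Vale.Agent.P307.R2.H718

variable {L : Language.{u, u}} {K : AEC L} {ℓ : Cardinal.{u}}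
  {κf α : Cardinal.{u} → Cardinal.{u}}

/-- **Joint reflection for pairs.** -/
theorem evL_jr2 : EvL K ℓ κf α fun _ M τ => JR2K M τ :=
  EvL.of_all (r := 0) fun _ _ hτθ _ hτ h₀ hK hunb hst _ _ hCm hs hCc _ _ _ _ hS hE =>
    pg_jr_one h₀ hK hunb hst hCm hs hCc hτ.base hτθ hS hE

end Vale.Agent.P307.R2.H319
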