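import Mathlib.Order.WithBot
import Mathlib.Order.WellFounded
import Mathlib.Order.Bounds.Basic
import Mathlib.Order.Interval.Set.Basic

/-!
A copy of the interval `(i₀, i₁]` of a well order above `i₁`: the next points of a set of marks.
-/

universe u

open Set

namespace Vale.Agent.P307.R2.H319

variable {T : Type u} [LinearOrder T] {i₀ i₁ : T} {ψ : T → T}

/-- The points up to `i` and the top point. -/
def bs (i : T) : Set (WithTop T) := insert ⊤ ((WithTop.some : T → WithTop T) '' Iic i)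

theorem top_mem_bs (i : T) : (⊤ : WithTop T) ∈ bs i := Or.inl rfl

theorem coe_mem_bs {i x : T} : (x : WithTop T) ∈ bs i ↔ x ≤ i := by
  constructor
  · rintro (h | ⟨y, hy, h⟩)
    · exact absurd h WithTop.coe_ne_top
    · rw [← WithTop.coe_injective h]
      exact hy
  · exact fun h => Or.inr ⟨x, h, rfl⟩

theorem bs_mono {i j : T} (h : i ≤ j) : bs i ⊆ bs j := by
  rintro x (hx | ⟨y, hy, rfl⟩)
  · exact Or.inl hx
  · exact coe_mem_bs.2 (le_trans hy h)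

theorem bs_cases {i : T} {x : WithTop T} (h : x ∈ bs i) : x = ⊤ ∨ ∃ y, y ≤ i ∧ x = y := by
  rcases h with h | ⟨y, hy, rfl⟩
  · exact Or.inl h
  · exact Or.inr ⟨y, hy, rfl⟩

/-- The map `ψ` moves the interval `(i₀, i₁]` above `i₁`. -/
structure Mv (i₀ i₁ : T) (ψ : T → T) : Prop where
  le : i₀ ≤ i₁
  fix : ∀ x, x ≤ i₀ → ψ x = x
  gt : ∀ x, i₀ < x → x ≤ i₁ → i₁ < ψ x
  mono : StrictMonoOn ψ (Iic i₁)

namespace Mv

variable (h : Mv i₀ i₁ ψ)

include h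

theorem map_mono : StrictMonoOn (WithTop.map ψ) (bs i₁) := by
  intro x hx y hy hxy
  rcases bs_cases hx with rfl | ⟨a, ha, rfl⟩
  · exact absurd hxy not_top_lt
  rcases bs_cases hy with rfl | ⟨b, hb, rfl⟩
  · rw [WithTop.map_coe, WithTop.map_top]
    exact WithTop.coe_lt_top _
  · rw [WithTop.map_coe, WithTop.map_coe]
    exact WithTop.coe_lt_coe.2 (h.mono ha hb (WithTop.coe_lt_coe.1 hxy))

theorem map_fix {x : WithTop T} (hx : x ∈ bs i₀) : WithTop.map ψ x = x := by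
  rcases bs_cases hx with rfl | ⟨a, ha, rfl⟩
  · rfl
  · rw [WithTop.map_coe, h.fix a ha]

/-- The images are in the lower part, or above all the points of the upper part. -/
theorem map_cases {x : WithTop T} (hx : x ∈ bs i₁) :
    (x ∈ bs i₀ ∧ WithTop.map ψ x = x) ∨ (x ≤ i₁ ∧ (i₁ : WithTop T) < WithTop.map ψ x) := by
  rcases bs_cases hx with rfl | ⟨a, ha, rfl⟩
  · exact Or.inl ⟨top_mem_bs _, rfl⟩
  · rcases le_or_gt a i₀ with h1 | h1
    · exact Or.inl ⟨coe_mem_bs.2 h1, h.map_fix (coe_mem_bs.2 h1)⟩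
    · refine Or.inr ⟨WithTop.coe_le_coe.2 ha, ?_⟩
      rw [WithTop.map_coe]
      exact WithTop.coe_lt_coe.2 (h.gt a h1 ha)

/-- The next points of `bs i₁` above the moved points are in `bs i₀`. -/
theorem least_bs {x : WithTop T} (hx : x ∈ WithTop.map ψ '' bs i₁) :
    ∃ g ∈ bs i₀, IsLeast {g | g ∈ bs i₁ ∧ x ≤ g} g := by
  obtain ⟨y, hy, rfl⟩ := hx
  rcases h.map_cases hy with ⟨h1, h2⟩ | ⟨-, h2⟩
  · rw [h2]
    exact ⟨y, h1, ⟨⟨hy, le_rfl⟩, fun z hz => hz.2⟩⟩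
  · refine ⟨⊤, top_mem_bs _, ⟨⟨top_mem_bs _, le_top⟩, fun z hz => ?_⟩⟩
    rcases bs_cases hz.1 with h3 | ⟨a, ha, h3⟩
    · exact h3.ge
    · exfalso
      have h4 : (i₁ : WithTop T) < z := h2.trans_le hz.2
      rw [h3] at h4
      exact absurd (WithTop.coe_lt_coe.1 h4) (not_lt.2 ha)

variable {G : Set (WithTop T)} (hG : G ⊆ bs i₁) (hT : ⊤ ∈ G) (h0 : (i₀ : WithTop T) ∈ G)
  (h1 : (i₁ : WithTop T) ∈ G)

omit h in
theorem exists_least [WellFoundedLT T] {G : Set (WithTop T)} (hT : ⊤ ∈ G) (v : WithTop T) :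
    ∃ g ∈ G, IsLeast {g | g ∈ G ∧ v ≤ g} g := by
  have hne : {g | g ∈ G ∧ v ≤ g}.Nonempty := ⟨⊤, hT, le_top⟩
  exact ⟨wellFounded_lt.min _ hne, (wellFounded_lt.min_mem _ hne).1,
    wellFounded_lt.min_mem _ _, fun z hz => not_lt.1 (wellFounded_lt.not_lt_min _ hz)⟩

include hG hT h1 in
/-- The next points above the points of `bs i₁`. -/
theorem least_one [WellFoundedLT T] {v : WithTop T} (hv : v ∈ bs i₁) :
    ∃ g ∈ G, IsLeast {g | g ∈ G ∪ WithTop.map ψ '' G ∧ v ≤ g} g := by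
  obtain ⟨g₀, hg₀, hl⟩ := exists_least hT v
  refine ⟨g₀, hg₀, ⟨⟨Or.inl hg₀, hl.1.2⟩, ?_⟩⟩
  rintro g' ⟨hg' | ⟨g, hg, rfl⟩, hv'⟩
  · exact hl.2 ⟨hg', hv'⟩
  · rcases h.map_cases (hG hg) with ⟨-, h3⟩ | ⟨-, h3⟩
    · rw [h3] at hv' ⊢
      exact hl.2 ⟨hg, hv'⟩
    · rcases bs_cases hv with rfl | ⟨a, ha, rfl⟩
      · exact le_trans le_top hv'
      · exact (hl.2 ⟨h1, WithTop.coe_le_coe.2 ha⟩).trans h3.le

include hG hT h0 in
/-- The next points above the moved points. -/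
theorem least_two [WellFoundedLT T] {v : WithTop T} (hv : v ∈ WithTop.map ψ '' bs i₁) :
    ∃ g ∈ WithTop.map ψ '' G, IsLeast {g | g ∈ G ∪ WithTop.map ψ '' G ∧ v ≤ g} g := by
  obtain ⟨v₀, hv₀, rfl⟩ := hv
  obtain ⟨g₀, hg₀, hl⟩ := exists_least hT v₀
  have hm := h.map_mono
  refine ⟨_, ⟨g₀, hg₀, rfl⟩, ⟨⟨Or.inr ⟨g₀, hg₀, rfl⟩,
    (hm.le_iff_le hv₀ (hG hg₀)).2 hl.1.2⟩, ?_⟩⟩
  rintro g' ⟨hg' | ⟨g, hg, rfl⟩, hv'⟩
  · rcases h.map_cases hv₀ with ⟨h2, h3⟩ | ⟨-, h3⟩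
    · rw [h3] at hv'
      rcases bs_cases h2 with rfl | ⟨a, ha, rfl⟩
      · exact le_trans le_top hv'
      · have h4 : g₀ ≤ i₀ := hl.2 ⟨h0, WithTop.coe_le_coe.2 ha⟩
        have h5 : g₀ ∈ bs i₀ := by
          rcases bs_cases (hG hg₀) with rfl | ⟨b, -, rfl⟩
          · exact top_mem_bs _
          · exact coe_mem_bs.2 (WithTop.coe_le_coe.1 h4)
        rw [h.map_fix h5]
        exact hl.2 ⟨hg', hv'⟩
    · have h4 : (i₁ : WithTop T) < g' := h3.trans_le hv'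
      rcases bs_cases (hG hg') with rfl | ⟨b, hb, rfl⟩
      · exact le_top
      · exact absurd (WithTop.coe_lt_coe.1 h4) (not_lt.2 hb)
  · have h4 : v₀ ≤ g := (hm.le_iff_le hv₀ (hG hg)).1 hv'
    exact (hm.le_iff_le (hG hg₀) (hG hg)).2 (hl.2 ⟨hg, h4⟩)

end Mv

end Vale.Agent.P307.R2.H319
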