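import Vale.Agent.P307.R2.H68.Unif
import Vale.Agent.P307.R2.H732.Shift
import Vale.Agent.P307.R2.H319.Jr2Ord

/-!
A large standard submodel `N` over a strong submodel `P`, and an automorphism `k` over `P` such that
`k '' N` is free from `N`; closed sets in this chart.
-/

set_option linter.unusedSectionVars false

universe u

open FirstOrder Cardinal Set

namespace Vale.Agent.P307.R2.H319

open Vale.Agent.P307 Vale.Agent.P307.H304 Vale.Agent.P307.R2.H287 Vale.Agent.P307.R2.H1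
  Vale.Agent.P307.R2.H806 Vale.Agent.P307.R2.H971 Vale.Agent.P307.R2.H541
  Vale.Agent.P307.R2.H68 Language.Structure Language.Substructure

variable {L : Language.{u, u}} {K : AEC L} {ℓ θ : Cardinal.{u}}
  {κf α : Cardinal.{u} → Cardinal.{u}} {C : Type u} [L.Structure C]

/-- The image of a part. -/
theorem image_part {Ω B : Type u} [LinearOrder Ω] [LinearOrder B] (Ψ : Ω → Ω) (X : Set Ω) :
    (fun j : Ω ×ₗ B => (toLex (Ψ (ofLex j).1, (ofLex j).2) : Ω ×ₗ B)) '' part X =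
      part (Ψ '' X) := by
  ext j
  constructor
  · rintro ⟨i, hi, rfl⟩
    exact ⟨_, hi, rfl⟩
  · rintro ⟨x, hx, hxj⟩
    refine ⟨toLex (x, (ofLex j).2), hx, ?_⟩
    change toLex (Ψ x, (ofLex j).2) = j
    rw [hxj]
    rfl

section

variable (h₀ : BasePt K ℓ κf α θ) (hK : K.IsLS ℓ)
  (hunb : ∀ ν, ν < κf ν ∧ K.CategoricalIn (κf ν)) (hst : Stab K ℓ α (H287.thr κf))
  (hCm : K.mem C) (hs : Sat K θ C) (hCc : #C = Order.succ θ)

include h₀ hK hunb hst hCm hs hCc

/-- **A free copy of a large submodel, in a chart.** -/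
theorem exists_pair_chart {σ : Cardinal.{u}} (hσ : ℓ ≤ σ) (hσθ : σ < θ) {P : Set C}
    (hP : P ∈ (pg h₀ hK hunb hst hCm hs hCc).S) {Y : Set C} (hY : #Y ≤ θ) :
    ∃ (N : Set C) (k : Equiv.Perm C) (φ : Finset C → Set C),
      N ∈ (pg h₀ hK hunb hst hCm hs hCc).S ∧ P ⊆ N ∧ Y ⊆ N ∧ k ∈ autG L C ∧
      (∀ x ∈ P, k x = x) ∧ (∀ s, #(φ s) ≤ 2 ^ σ) ∧
      (∀ A ⊆ N, #A ≤ σ → ∀ z ⊆ k '' N, #z ≤ σ →
        ∃ g ∈ autG L C, (∀ a ∈ A, g a = a) ∧ ∀ b ∈ z, g b ∈ P) ∧
      ∀ H, Clo φ H → ∀ x ⊆ N, #x ≤ σ → ∀ y ⊆ N, #y ≤ σ → ∀ q ⊆ N ∩ H, #q ≤ σ →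
        ∀ r ⊆ N ∩ H, #r ≤ σ → ∃ g ∈ autG L C, (∀ a ∈ q, g a = a) ∧
          (∀ a ∈ r, g (k a) = k a) ∧ (∀ a ∈ x, g a ∈ N ∩ H) ∧
          ∀ a ∈ y, g (k a) ∈ k '' (N ∩ H) := by
  classical
  have hθ := aleph0_le_pt h₀ hK
  have h1θ : (1 : Cardinal.{u}) ≤ θ := one_le_aleph0.trans hθ
  have hℓθ : ℓ ≤ θ := h₀.pt.lt.le
  have hσ0 : ℵ₀ ≤ σ := hK.1.trans hσ
  have h2σ : ℵ₀ ≤ 2 ^ σ := hσ0.trans (cantor σ).le
  have hB : #(Blk σ) ≤ θ := (mk_blk hσ0).trans (h₀.pow σ hσθ).le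
  obtain ⟨D, hD, hDc, rfl⟩ := hP
  obtain ⟨t⟩ := exists_tpl' hK hunb
  obtain ⟨E, e, i₀, hDe⟩ := exists_chart_top h₀.ab hK hℓθ h₀.pt.cat
    (h₀.largeExt hK hunb _) t hℓθ (B := Blk σ) hB hs hCc D hD hDc
  have hEs : Sat K θ E.N := sat_em_top h₀.ab hK hℓθ (h₀.largeExt hK hunb _) t hℓθ hB E
  have hEc : #E.N = Order.succ θ := (mk_congr e.toEquiv).trans hCc
  have hEc' : θ ≤ #E.N := (Order.le_succ θ).trans hEc.ge
  let pr : WithTop (SuccTy θ) ×ₗ Blk σ → WithTop (SuccTy θ) := fun j => (ofLex j).1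
  -- supports
  have hsup : ∀ x : C, ∃ w : Finset (WithTop (SuccTy θ) ×ₗ Blk σ),
      e.symm x ∈ hull E (w : Set _) := by
    intro x
    have h1 : e.symm x ∈ hull E (univ : Set (WithTop (SuccTy θ) ×ₗ Blk σ)) := by
      change e.symm x ∈ closure (exLang L t.Λ) (E.c '' univ)
      rw [image_univ, E.top]
      trivial
    obtain ⟨w, s, -, hs⟩ := exists_finset_term_of_mem E h1
    exact ⟨w, (mem_closure_image_iff E.c _ _).2 ⟨s, hs⟩⟩
  choose w₀ hw₀ using hsup
  -- the bound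
  let U : Set (SuccTy θ) := {a | ∃ x ∈ Y, (a : WithTop (SuccTy θ)) ∈ pr '' (w₀ x : Set _)}
  have hU : #U ≤ θ := by
    have h1 : U ⊆ ⋃ x : Y, WithTop.some ⁻¹' (pr '' (w₀ x.1 : Set _)) := by
      rintro a ⟨x, hx, ha⟩
      exact mem_iUnion.2 ⟨⟨x, hx⟩, ha⟩
    refine (mk_le_mk_of_subset h1).trans ((mk_iUnion_le _).trans ?_)
    refine (mul_le_mul' hY (ciSup_le' fun x => ?_)).trans (mul_eq_self hθ).le
    have h2 : (WithTop.some ⁻¹' (pr '' (w₀ x.1 : Set _)) : Set (SuccTy θ)).Finite :=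
      ((w₀ x.1).finite_toSet.image _).preimage WithTop.coe_injective.injOn
    exact h2.lt_aleph0.le.trans hθ
  obtain ⟨i₂, hi₂, hi₂c⟩ := exists_bound hθ U hU
  let i₁ : SuccTy θ := max i₀ i₂
  have hi01 : i₀ ≤ i₁ := le_max_left _ _
  have hIic : #(Iic i₁) ≤ θ := by
    rw [← Iio_insert]
    exact mk_insert_le.trans (add_le_of_le hθ (mk_Iio_succTy i₁) h1θ)
  have hbc : #(bs i₁) ≤ θ := mk_insert_le.trans (add_le_of_le hθ (mk_image_le.trans hIic) h1θ)
  have hbc' : θ ≤ #(bs i₁) := by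
    have h1 : θ ≤ #(Iic i₁) := by
      refine hi₂c.ge.trans (mk_le_mk_of_subset fun x hx => ?_)
      exact (mem_Iio.1 hx).le.trans (le_max_right _ _)
    refine h1.trans ?_
    rw [← mk_image_eq (f := (WithTop.some : SuccTy θ → WithTop (SuccTy θ))) (s := Iic i₁)
      WithTop.coe_injective]
    exact mk_le_mk_of_subset (subset_insert _ _)
  have hUc : #(part (bs i₁) : Set (WithTop (SuccTy θ) ×ₗ Blk σ)) = θ :=
    le_antisymm (mk_part_le hθ hbc hB) (le_mk_part hbc')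
  have hDbs : (D : Set C) = e '' (hullL E (part (bs i₀)) : Set E.N) := hDe
  -- the map of the indices
  obtain ⟨b₁, hb₁, -⟩ := exists_bound hθ {i₁} (by
    rw [mk_singleton]
    exact h1θ)
  have hb₁' : i₁ < b₁ := hb₁ i₁ rfl
  obtain ⟨f, hf1, hf2⟩ := exists_strictMono_above hθ (W := Iic i₁) hIic b₁
  let ψ : SuccTy θ → SuccTy θ := fun x => if hx : i₀ < x ∧ x ≤ i₁ then f ⟨x, hx.2⟩ else x
  have hψ0 : ∀ x, x ≤ i₀ → ψ x = x := fun x hx => dif_neg fun h => absurd h.1 (not_lt.2 hx)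
  have hψ1 : ∀ x (_ : i₀ < x) (h' : x ≤ i₁), ψ x = f ⟨x, h'⟩ := fun x h h' => dif_pos ⟨h, h'⟩
  have hMv : Mv i₀ i₁ ψ := by
    refine ⟨hi01, hψ0, fun x hx hx' => ?_, fun x hx y hy hxy => ?_⟩
    · rw [hψ1 x hx hx']
      exact hb₁'.trans_le (hf2 _)
    · rcases le_or_gt x i₀ with h1 | h1
      · rw [hψ0 x h1]
        rcases le_or_gt y i₀ with h2 | h2
        · rwa [hψ0 y h2]
        · rw [hψ1 y h2 hy]
          exact (h1.trans hi01).trans_lt (hb₁'.trans_le (hf2 _))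
      · rw [hψ1 x h1 hx, hψ1 y (h1.trans hxy) hy]
        exact hf1 hxy
  let Ψ : WithTop (SuccTy θ) → WithTop (SuccTy θ) := WithTop.map ψ
  let ψJ : WithTop (SuccTy θ) ×ₗ Blk σ → WithTop (SuccTy θ) ×ₗ Blk σ :=
    fun j => toLex (Ψ (ofLex j).1, (ofLex j).2)
  have hψJ : StrictMonoOn ψJ (part (bs i₁)) := by
    intro x hx y hy hxy
    rcases Prod.Lex.lt_iff.1 hxy with h | h
    · exact Prod.Lex.lt_iff.2 (Or.inl (hMv.map_mono hx hy h))
    · exact Prod.Lex.lt_iff.2 (Or.inr ⟨congrArg Ψ h.1, h.2⟩)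
  obtain ⟨s, hs1, hs2⟩ := H732.exists_shift_aut hK hℓθ hℓθ E hEs hEc hUc ψJ hψJ
  let kL : C ≃[L] C := (e.comp s).comp e.symm
  let k : Equiv.Perm C := kL.toEquiv
  have hkG : k ∈ autG L C := mem_autG kL
  have hke : ∀ z, k (e z) = e (s z) := by
    intro z
    change e (s (e.symm (e z))) = e (s z)
    rw [Language.Equiv.symm_apply_apply]
  have hkim : ∀ X ⊆ bs i₁, k '' (e '' (hullL E (part X) : Set E.N)) =
      e '' (hullL E (part (Ψ '' X)) : Set E.N) := by
    intro X hX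
    rw [← image_part Ψ X, ← hs1 (part X) (part_mono hX), image_image, image_image]
    exact image_congr fun z _ => hke z
  let N : Set C := e '' (hullL E (part (bs i₁)) : Set E.N)
  have hkN : k '' N = e '' (hullL E (part (Ψ '' bs i₁)) : Set E.N) := hkim _ Subset.rfl
  have hDN : (D : Set C) ⊆ N := by
    rw [hDbs]
    exact image_mono (hullL_mono E (part_mono (bs_mono hi01)))
  have hYN : Y ⊆ N := by
    intro x hx
    refine ⟨e.symm x, hull_mono E ?_ (hw₀ x), e.apply_symm_apply x⟩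
    intro j hj
    change pr j ∈ bs i₁
    rcases h : pr j with _ | a
    · exact top_mem_bs _
    · refine coe_mem_bs.2 (((hi₂ a ⟨x, hx, ?_⟩).le).trans (le_max_right _ _))
      exact ⟨j, hj, h⟩
  have hNS : N ∈ (pg h₀ hK hunb hst hCm hs hCc).S := by
    refine ⟨(hullL E (part (bs i₁))).map e.toHom, K.le_iso e _ (le_hullL E _), ?_, rfl⟩
    refine le_antisymm ?_ ?_
    · exact (mk_image_le (f := e) (s := (hullL E (part (bs i₁)) : Set E.N))).trans
        (mk_hullL_le E hℓθ hUc.le)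
    · exact hDc.ge.trans (mk_le_mk_of_subset hDN)
  have hkP : ∀ x ∈ (D : Set C), k x = x := by
    intro x hx
    rw [hDbs] at hx
    obtain ⟨z, hz, rfl⟩ := hx
    rw [hke, hs2 (part (bs i₀)) (part_mono (bs_mono hi01)) ?_ z hz]
    intro j hj
    change toLex (Ψ (ofLex j).1, (ofLex j).2) = j
    rw [show Ψ (ofLex j).1 = (ofLex j).1 from hMv.map_fix hj]
    rfl
  -- supports in the part
  have hsup' : ∀ x ∈ N, ∃ w : Finset (WithTop (SuccTy θ) ×ₗ Blk σ), (w : Set (WithTop (SuccTy θ) ×ₗ Blk σ)) ⊆ part (bs i₁) ∧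
      e.symm x ∈ hull E (w : Set _) := by
    rintro _ ⟨z, hz, rfl⟩
    obtain ⟨w, s, hw, hs⟩ := exists_finset_term_of_mem E (W := part (bs i₁)) hz
    refine ⟨w, fun j hj => hw j hj, ?_⟩
    rw [Language.Equiv.symm_apply_apply]
    exact (mem_closure_image_iff E.c _ _).2 ⟨s, hs⟩
  choose! w hw1 hw2 using hsup'
  let G₀ : Set C → Set (WithTop (SuccTy θ)) := fun H =>
    insert ⊤ (insert (i₀ : WithTop (SuccTy θ)) (insert (i₁ : WithTop (SuccTy θ))
      (⋃ x ∈ H ∩ N, pr '' (w x : Set _))))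
  let φH : Set C → Set C := fun H => e '' (hull E (part (G₀ H)) : Set E.N)
  have hG₀ : ∀ s : Finset C, #(G₀ s) ≤ ℵ₀ := by
    intro s
    have h1 : (G₀ s).Finite := by
      refine Set.Finite.insert _ (Set.Finite.insert _ (Set.Finite.insert _ ?_))
      refine Set.Finite.biUnion (s.finite_toSet.inter_of_left _) fun x _ => ?_
      exact (w x).finite_toSet.image _
    exact h1.lt_aleph0.le
  have hGbs : ∀ H, G₀ H ⊆ bs i₁ := by
    rintro H x (rfl | rfl | rfl | hx)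
    · exact top_mem_bs _
    · exact coe_mem_bs.2 hi01
    · exact coe_mem_bs.2 le_rfl
    · obtain ⟨y, hy, j, hj, rfl⟩ := mem_iUnion₂.1 hx
      exact hw1 y hy.2 hj
  have hclo : ∀ H : Set C, Clo (fun s => φH (s : Set C)) H → N ∩ H = φH H := by
    intro H hH
    apply Subset.antisymm
    · rintro x ⟨hxN, hxH⟩
      refine ⟨e.symm x, hull_mono E ?_ (hw2 x hxN), e.apply_symm_apply x⟩
      intro j hj
      exact Or.inr (Or.inr (Or.inr (mem_biUnion (x := x) ⟨hxH, hxN⟩ ⟨j, hj, rfl⟩)))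
    · rintro _ ⟨z, hz, rfl⟩
      refine ⟨⟨z, hull_mono E (part_mono (hGbs H)) hz, rfl⟩, ?_⟩
      obtain ⟨v, s, hv, hs⟩ := exists_finset_term_of_mem E hz
      have h1 : ∀ j ∈ v, ∃ x : Option C, (∀ y ∈ x, y ∈ H ∩ N) ∧
          (pr j = ⊤ ∨ pr j = i₀ ∨ pr j = i₁ ∨ ∃ y ∈ x, pr j ∈ pr '' (w y : Set _)) := by
        intro j hj
        rcases hv j hj with h | h | h | h
        · exact ⟨none, by simp, Or.inl h⟩
        · exact ⟨none, by simp, Or.inr (Or.inl h)⟩
        · exact ⟨none, by simp, Or.inr (Or.inr (Or.inl h))⟩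
        · obtain ⟨y, hy, hy'⟩ := mem_iUnion₂.1 h
          exact ⟨some y, fun z hz => by cases hz; exact hy,
            Or.inr (Or.inr (Or.inr ⟨y, rfl, hy'⟩))⟩
      choose! f hf1 hf2 using h1
      let s' : Finset C := v.biUnion fun j => (f j).toFinset
      have hs' : (s' : Set C) ⊆ H ∩ N := by
        intro y hy
        obtain ⟨j, hj, hy⟩ := Finset.mem_biUnion.1 (Finset.mem_coe.1 hy)
        exact hf1 j hj y (Option.mem_toFinset.1 hy)
      refine hH s' (hs'.trans inter_subset_left)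
        ⟨z, hull_mono E ?_ ((mem_closure_image_iff E.c _ _).2 ⟨s, hs⟩), rfl⟩
      intro j hj
      rcases hf2 j hj with h | h | h | ⟨y, hy, h⟩
      · exact Or.inl h
      · exact Or.inr (Or.inl h)
      · exact Or.inr (Or.inr (Or.inl h))
      · have hys : y ∈ (s' : Set C) :=
          Finset.mem_coe.2 (Finset.mem_biUnion.2 ⟨j, hj, Option.mem_toFinset.2 hy⟩)
        exact Or.inr (Or.inr (Or.inr (mem_biUnion (x := y) ⟨hys, (hs' hys).2⟩ h)))
  refine ⟨N, k, fun s => φH s, hNS, hDN, hYN, hkG, hkP, fun s => ?_, ?_, ?_⟩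
  · refine mk_image_le.trans ?_
    refine mk_hullL_le E (hσ.trans (cantor σ).le) ?_
    exact mk_part_le h2σ ((hG₀ s).trans h2σ) (mk_blk hσ0)
  · -- the copy is free
    intro A hA hAc z hz hzc
    have hm : ∀ a : A, e.symm a.1 ∈ hull E (part (bs i₁)) := by
      intro a
      obtain ⟨y, hy, hya⟩ := hA a.2
      rw [← hya, e.symm_apply_apply]
      exact hy
    have hr : ∀ b : z, e.symm b.1 ∈ hull E (part (Ψ '' bs i₁)) := by
      intro b
      have h1 := hz b.2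
      rw [hkN] at h1
      obtain ⟨y, hy, hyb⟩ := h1
      rw [← hyb, e.symm_apply_apply]
      exact hy
    obtain ⟨g, hg, hg1, hg2⟩ := exists_shift_aut' h₀ hK hunb hst hCm hs hCc hσ hσθ E hEc'
      e.toEmbedding (AEC.Emb.of_equiv e E.mem) (bs i₁) hzc hAc (fun _ : z => Ψ '' bs i₁)
      (fun _ : z => bs i₀) (fun _ x hx => hMv.least_bs hx) (fun a : A => e.symm a.1) hm
      (fun b : z => e.symm b.1) hr
    refine ⟨g, hg, fun a ha => ?_, fun b hb => ?_⟩
    · have h3 := hg1 ⟨a, ha⟩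
      change g (e (e.symm a)) = e (e.symm a) at h3
      rwa [e.apply_symm_apply] at h3
    · obtain ⟨y, hy, hy'⟩ := hg2 ⟨b, hb⟩
      change g (e (e.symm b)) = e y at hy'
      rw [e.apply_symm_apply] at hy'
      rw [hy', hDbs]
      exact ⟨y, hull_mono E (part_mono inter_subset_left) hy, rfl⟩
  · -- the shift into closed sets
    intro H hH x hx hxc y hy hyc q hq hqc r hr hrc
    have hNH := hclo H hH
    have hGs := hGbs H
    have hTG : (⊤ : WithTop (SuccTy θ)) ∈ G₀ H := Or.inl rfl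
    have h0G : (i₀ : WithTop (SuccTy θ)) ∈ G₀ H := Or.inr (Or.inl rfl)
    have h1G : (i₁ : WithTop (SuccTy θ)) ∈ G₀ H := Or.inr (Or.inr (Or.inl rfl))
    have hkG₀ := hkim (G₀ H) hGs
    have hι : #(x ⊕ y) ≤ σ := by
      rw [mk_sum, lift_id, lift_id]
      exact (add_le_add hxc hyc).trans (add_eq_self hσ0).le
    have hζ : #(q ⊕ r) ≤ σ := by
      rw [mk_sum, lift_id, lift_id]
      exact (add_le_add hqc hrc).trans (add_eq_self hσ0).le
    have hin : ∀ a ∈ N, e.symm a ∈ hull E (part (bs i₁)) := by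
      rintro _ ⟨z, hz, rfl⟩
      rw [e.symm_apply_apply]
      exact hz
    have hin' : ∀ a ∈ N, e.symm (k a) ∈ hull E (part (Ψ '' bs i₁)) := by
      intro a ha
      have h1 : k a ∈ k '' N := mem_image_of_mem k ha
      rw [hkN] at h1
      obtain ⟨z, hz, hza⟩ := h1
      rw [← hza, e.symm_apply_apply]
      exact hz
    have hm : ∀ j : q ⊕ r, Sum.elim (fun a : q => e.symm a.1) (fun a : r => e.symm (k a.1)) j ∈
        hull E (part (G₀ H ∪ Ψ '' G₀ H)) := by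
      rintro (a | a)
      · have h1 := hq a.2
        rw [hNH] at h1
        obtain ⟨z, hz, hza⟩ := h1
        change e.symm a.1 ∈ _
        rw [← hza, e.symm_apply_apply]
        exact hull_mono E (part_mono subset_union_left) hz
      · have h1 : k a.1 ∈ k '' (N ∩ H) := mem_image_of_mem k (hr a.2)
        rw [hNH] at h1
        have h2 : k a.1 ∈ e '' (hullL E (part (Ψ '' G₀ H)) : Set E.N) := by
          rw [← hkG₀]
          exact h1
        obtain ⟨z, hz, hza⟩ := h2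
        change e.symm (k a.1) ∈ _
        rw [← hza, e.symm_apply_apply]
        exact hull_mono E (part_mono subset_union_right) hz
    obtain ⟨g, hg, hg1, hg2⟩ := exists_shift_aut' h₀ hK hunb hst hCm hs hCc hσ hσθ E hEc'
      e.toEmbedding (AEC.Emb.of_equiv e E.mem) (G₀ H ∪ Ψ '' G₀ H) hι hζ
      (Sum.elim (fun _ : x => bs i₁) (fun _ : y => Ψ '' bs i₁))
      (Sum.elim (fun _ : x => G₀ H) (fun _ : y => Ψ '' G₀ H)) (by
        rintro (i | i) v hv
        · exact hMv.least_one hGs hTG h1G hv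
        · exact hMv.least_two hGs hTG h0G hv)
      (Sum.elim (fun a : q => e.symm a.1) (fun a : r => e.symm (k a.1))) hm
      (Sum.elim (fun a : x => e.symm a.1) (fun a : y => e.symm (k a.1))) (by
        rintro (a | a)
        · exact hin a.1 (hx a.2)
        · exact hin' a.1 (hy a.2))
    refine ⟨g, hg, fun a ha => ?_, fun a ha => ?_, fun a ha => ?_, fun a ha => ?_⟩
    · have h3 := hg1 (Sum.inl ⟨a, ha⟩)
      change g (e (e.symm a)) = e (e.symm a) at h3
      rwa [e.apply_symm_apply] at h3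
    · have h3 := hg1 (Sum.inr ⟨a, ha⟩)
      change g (e (e.symm (k a))) = e (e.symm (k a)) at h3
      rwa [e.apply_symm_apply] at h3
    · obtain ⟨z, hz, hz'⟩ := hg2 (Sum.inl ⟨a, ha⟩)
      change g (e (e.symm a)) = e z at hz'
      rw [e.apply_symm_apply] at hz'
      rw [hz', hNH]
      exact ⟨z, hull_mono E (part_mono inter_subset_left) hz, rfl⟩
    · obtain ⟨z, hz, hz'⟩ := hg2 (Sum.inr ⟨a, ha⟩)
      change g (e (e.symm (k a))) = e z at hz'
      rw [e.apply_symm_apply] at hz'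
      rw [hz', hNH]
      change e z ∈ k '' (e '' (hullL E (part (G₀ H)) : Set E.N))
      rw [hkG₀]
      exact ⟨z, hull_mono E (part_mono inter_subset_left) hz, rfl⟩

end

end Vale.Agent.P307.R2.H319
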