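import Vale.Agent.P307.R2.H319.Jr2Abs
import Vale.Agent.P307.R2.H319.Jr2Chart
import Vale.Agent.P307.R2.H480.Up
import Vale.Agent.P307.R2.H732.Tx2
import Vale.Agent.P307.R2.H913.TrPch

/-!
Joint reflection of two submodels which are independent over a submodel, over the traces of the two
submodels.
-/

set_option linter.unusedSectionVars false

universe u v

open FirstOrder Cardinal Set

namespace Vale.Agent.P307.R2.H319

open Vale.Agent.P307 Vale.Agent.P307.H304 Vale.Agent.P307.R2.H287 Vale.Agent.P307.R2.H1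
  Vale.Agent.P307.R2.H971 Vale.Agent.P307.R2.H804 Vale.Agent.P307.R2.H541
  Vale.Agent.P307.R2.H541.PG Vale.Agent.P307.R2.H68 Vale.Agent.P307.R2.H913
  Language.Structure Language.Substructure

variable {L : Language.{u, u}} {K : AEC L} {ℓ θ τ : Cardinal.{u}}
  {κf α : Cardinal.{u} → Cardinal.{u}} {C : Type u} [L.Structure C]

/-- Levels are levels for larger bounds. -/
theorem lvl_mono {ν μ ρ : Cardinal.{u}} (h : Lvl ℓ κf α ν μ ρ τ) (hτ : τ ≤ θ) :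
    Lvl ℓ κf α ν μ ρ θ :=
  ⟨h.hℓ, h.tB, h.νμ, h.opB, h.limB, h.lt.trans_le hτ, h.thr.trans hτ, h.thr'.trans hτ,
    h.thr''.trans hτ⟩

section

variable (h₀ : BasePt K ℓ κf α θ) (hK : K.IsLS ℓ)
  (hunb : ∀ ν, ν < κf ν ∧ K.CategoricalIn (κf ν)) (hst : Stab K ℓ α (H287.thr κf))
  (hCm : K.mem C) (hs : Sat K θ C) (hCc : #C = Order.succ θ)

include h₀ hK hunb hst hCm hs hCc

/-- Independence of small sets from a given level. -/
theorem pg_ind_lvl {ν μ ρ : Cardinal.{u}} (hl : Lvl ℓ κf α ν μ ρ θ) {P N : Set C}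
    (hP : P ∈ (pg h₀ hK hunb hst hCm hs hCc).S) (hN : N ∈ (pg h₀ hK hunb hst hCm hs hCc).S)
    (hPN : P ⊆ N) {E : Set C} (hE : #E ≤ ν)
    (h : ∀ A ⊆ N, #A ≤ ρ → ∃ g ∈ autG L C, (∀ a ∈ A, g a = a) ∧ ∀ e ∈ E, g e ∈ P) :
    (pg h₀ hK hunb hst hCm hs hCc).Ind P N E := by
  obtain ⟨D, hD, hDc, rfl⟩ := hP
  obtain ⟨N, hN, hNc, rfl⟩ := hN
  have hμ0 := hl.hμ hK
  have hEμ : #E ≤ μ := hE.trans hl.νμ
  refine H480.pg_ind_of_lvl h₀ hK hunb hst hCm hs hCc hD hDc hN hNc hPN hl hE ?_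
  refine ind_of_coh h₀ hK hunb hl N hN hNc hEμ _ (union_subset hPN Subset.rfl) ?_
  intro η y hη hy
  obtain ⟨g, ⟨e, he⟩, h2, h3⟩ := h (range y) (by
    rintro _ ⟨z, rfl⟩
    rcases hy z with h | h
    · exact hPN h
    · exact h) (mk_range_le.trans (hη.trans hl.limB))
  refine ⟨fun i => e i, fun i => ?_, fun ξ f hξ => ?_⟩
  · change e i ∈ (D : Set C)
    rw [he]
    exact h3 _ i.2
  · have h4 := H804.EqS.equiv hμ0 (mk_sum_le' hμ0 hξ hEμ) e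
      (Sum.elim (fun k => y (f k)) fun x : E => (x : C))
    refine EqS.symm (h4.subset ?_)
    rintro _ ⟨k | i, rfl⟩
    · refine ⟨Sum.inl k, Prod.ext rfl ?_⟩
      change e (y (f k)) = y (f k)
      rw [he]
      exact h2 _ ⟨_, rfl⟩
    · exact ⟨Sum.inr i, rfl⟩

/-- Moving pieces of a small submodel into a smaller one, at the lower level. -/
theorem pg_move (hτ : BasePt K ℓ κf α τ) (hτθ : τ < θ) {P N Q z x a : Set C}
    (hP : P ∈ Sm K τ C) (hQ : Q ∈ Sm K τ C) (hN : #N ≤ τ) (hPQ : P ⊆ Q) (hQN : Q ⊆ N)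
    (hz : #z < τ) (hI : (pg h₀ hK hunb hst hCm hs hCc).IndT τ P N z) (hx : x ⊆ N)
    (hxc : #x < τ) (ha : a ⊆ Q) (hac : #a < τ) :
    ∃ g ∈ autG L C, (∀ y ∈ a, g y = y) ∧ (∀ y ∈ z, g y = y) ∧ ∀ y ∈ x, g y ∈ Q := by
  have hτ0 := aleph0_le_pt hτ hK
  obtain ⟨C', hC', hC'c, hC's, hY⟩ := exists_low h₀ hK hunb hCm hCc hτ hτθ (Y := N ∪ z)
    ((mk_union_le _ _).trans (add_le_of_le hτ0 hN hz.le))
  have hND : N ⊆ (C' : Set C) := subset_union_left.trans hY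
  have hzD : z ⊆ (C' : Set C) := subset_union_right.trans hY
  exact exists_move_low (pg_low h₀ hK hunb hst hCm hs hCc hτ hτθ hC' hC'c hC's)
    (pg_calc (C := C') hτ hK hunb hst (K.mem_of_le _ hC').1 hC's hC'c)
    (tr_mem hK hunb hst hτ hC' hC'c hC's hP ((hPQ.trans hQN).trans hND))
    (tr_mem hK hunb hst hτ hC' hC'c hC's hQ (hQN.trans hND)) hND hzD hPQ hQN hz hI hx hxc ha hac

/-- The joint reflection for pieces of a fixed size. -/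
theorem jr2_level (hτ : BasePt K ℓ κf α τ) (hτθ : τ < θ) {d : Cardinal.{u}} (hd : d < τ)
    {P Q R : Set C} (hP : P ∈ (pg h₀ hK hunb hst hCm hs hCc).S)
    (hQ : Q ∈ (pg h₀ hK hunb hst hCm hs hCc).S) (hR : R ∈ (pg h₀ hK hunb hst hCm hs hCc).S)
    (hPQ : P ⊆ Q) (hPR : P ⊆ R) (hI : (pg h₀ hK hunb hst hCm hs hCc).Ind P Q R) :
    ∃ φ : Finset C → Set C, (∀ s, #(φ s) ≤ τ) ∧ ∀ H, Clo φ H → #H ≤ τ →
      ∀ x ⊆ Q, #x ≤ d → ∀ y ⊆ R, #y ≤ d → ∀ q ⊆ Q ∩ H, #q ≤ d → ∀ r ⊆ R ∩ H, #r ≤ d →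
        ∃ g ∈ autG L C, (∀ a ∈ q, g a = a) ∧ (∀ a ∈ r, g a = a) ∧ (∀ a ∈ x, g a ∈ Q ∩ H) ∧
          ∀ a ∈ y, g a ∈ R ∩ H := by
  have hM := pg_calc h₀ hK hunb hst hCm hs hCc
  have hθ := aleph0_le_pt h₀ hK
  have hτ0 := aleph0_le_pt hτ hK
  -- the levels
  have hdd : d + d < τ := add_lt_of_lt hτ0 hd hd
  obtain ⟨ν₁, μ₁, ρ₁, hν₁, -, hl₁⟩ := exists_lvl hτ hdd
  obtain ⟨ν₂, μ₂, ρ₂, hν₂, -, hl₂⟩ := exists_lvl hτ (add_lt_of_lt hτ0 hl₁.lt hdd)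
  have hρν : ρ₁ ≤ ν₂ := (self_le_add_right _ _).trans hν₂
  have hdν : d + d ≤ ν₂ := (self_le_add_left _ _).trans hν₂
  have hνρ : ν₂ ≤ ρ₂ := hl₂.νμ.trans (hl₂.μρ hunb)
  have hdρ : d ≤ ρ₂ := (self_le_add_right d d).trans (hdν.trans hνρ)
  have hl₁' := lvl_mono hl₁ hτθ.le
  have hl₂' := lvl_mono hl₂ hτθ.le
  -- the chart
  have hQRc : #(Q ∪ R : Set C) ≤ θ := by
    refine (mk_union_le _ _).trans (add_le_of_le hθ ?_ ?_)
    · exact ((pg h₀ hK hunb hst hCm hs hCc).S_card hQ).le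
    · exact ((pg h₀ hK hunb hst hCm hs hCc).S_card hR).le
  obtain ⟨N, k, φ₁, hN, hPN, hQR, hk, hkP, hφ₁, hfree, hsh⟩ := exists_pair_chart h₀ hK hunb hst
    hCm hs hCc (hl₂.hℓ.trans hνρ) (hl₂.lt.trans hτθ) hP hQRc
  have hQN : Q ⊆ N := subset_union_left.trans hQR
  have hRN : R ⊆ N := subset_union_right.trans hQR
  have hkN : k '' N ∈ (pg h₀ hK hunb hst hCm hs hCc).S :=
    (pg h₀ hK hunb hst hCm hs hCc).S_inv hk hN
  have hkPP : k '' P = P := image_eq_of_fix hkP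
  have hPkN : P ⊆ k '' N := by
    rw [← hkPP]
    exact image_mono hPN
  -- independence
  have hA : ∀ z ⊆ k '' N, #z ≤ ν₂ → (pg h₀ hK hunb hst hCm hs hCc).Ind P N z := by
    intro z hz hzc
    exact pg_ind_lvl h₀ hK hunb hst hCm hs hCc hl₂' hP hN hPN hzc fun A hA hAc =>
      hfree A hA hAc z hz (hzc.trans hνρ)
  have hB : ∀ z ⊆ N, #z ≤ d + d → (pg h₀ hK hunb hst hCm hs hCc).Ind P (k '' N) z := by
    intro z hz hzc
    refine pg_ind_lvl h₀ hK hunb hst hCm hs hCc hl₁' hP hkN hPkN (hzc.trans hν₁)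
      fun A hAN hAc => ?_
    have h1 := hM.sym hP (hA A hAN (hAc.trans hρν))
    exact h1 A subset_union_right (hAc.trans_lt (hl₁.lt.trans hτθ)) z hz
      (hzc.trans_lt (hdd.trans hτθ))
  -- the closure
  obtain ⟨φ₂, hφ₂, htr⟩ := exists_trace_ind h₀ hK hunb hst hCm hs hCc hτ.pt.lt hτ.pow hτθ.le hP
  obtain ⟨φP, hφP, hcP⟩ := exists_clo_sm h₀ hK hunb hst hCm hs hCc hτ hτθ hP
  obtain ⟨φQ, hφQ, hcQ⟩ := exists_clo_sm h₀ hK hunb hst hCm hs hCc hτ hτθ hQ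
  obtain ⟨φR, hφR, hcR⟩ := exists_clo_sm h₀ hK hunb hst hCm hs hCc hτ hτθ hR
  have hun : ∀ X Y : Set C, #X ≤ τ → #Y ≤ τ → #(X ∪ Y : Set C) ≤ τ := fun X Y hX hY =>
    (mk_union_le _ _).trans (add_le_of_le hτ0 hX hY)
  refine ⟨fun s => φ₁ s ∪ (φ₂ s ∪ (φP s ∪ (φQ s ∪ φR s))), fun s =>
    hun _ _ ((hφ₁ s).trans (hτ.pow _ hl₂.lt).le) (hun _ _ (hφ₂ s)
      (hun _ _ (hφP s) (hun _ _ (hφQ s) (hφR s)))), ?_⟩
  intro H hH hHc x hx hxc y hy hyc q hq hqc r hr hrc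
  obtain ⟨c1, c2⟩ := clo_union hH
  obtain ⟨c2, c3⟩ := clo_union c2
  obtain ⟨c3, c4⟩ := clo_union c3
  obtain ⟨c4, c5⟩ := clo_union c4
  have hPH : P ∩ H ∈ Sm K τ C := hcP H c3 hHc
  have hQH : Q ∩ H ∈ Sm K τ C := hcQ H c4 hHc
  have hRH : R ∩ H ∈ Sm K τ C := hcR H c5 hHc
  have hNH : #(N ∩ H : Set C) ≤ τ := (mk_le_mk_of_subset inter_subset_right).trans hHc
  have hqH : q ⊆ N ∩ H := fun a ha => ⟨hQN (hq ha).1, (hq ha).2⟩
  have hrH : r ⊆ N ∩ H := fun a ha => ⟨hRN (hr ha).1, (hr ha).2⟩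
  -- the glue of the identity and `k`
  have hgl : ∀ a ⊆ Q, #a ≤ d + d → ∀ b ⊆ R, #b ≤ d + d →
      ∃ h ∈ autG L C, (∀ c ∈ a, h c = c) ∧ ∀ c ∈ b, h c = k c := by
    intro a ha hac b hb hbc
    have h1 : (pg h₀ hK hunb hst hCm hs hCc).Ind P (((1 : Equiv.Perm C) : C → C) '' a)
        (k '' b) := by
      refine (hA (k '' b) (image_mono (hb.trans hRN)) (mk_image_le.trans (hbc.trans hdν))).mono
        ?_ Subset.rfl
      rintro _ ⟨c, hc, rfl⟩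
      exact hQN (ha hc)
    obtain ⟨h, hh, h2, h3⟩ := Up.glue hM hP (hac.trans_lt (hdd.trans hτθ))
      (hbc.trans_lt (hdd.trans hτθ)) (hI.mono ha hb) (M := pg h₀ hK hunb hst hCm hs hCc)
      (one_mem _) hk (fun _ _ => rfl) hkP h1
    exact ⟨h, hh, h2, h3⟩
  obtain ⟨h, hh, hh1, hh2⟩ := hgl (q ∪ x) (union_subset (hq.trans inter_subset_left) hx)
    ((mk_union_le _ _).trans (add_le_add hqc hxc)) (r ∪ y)
    (union_subset (hr.trans inter_subset_left) hy)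
    ((mk_union_le _ _).trans (add_le_add hrc hyc))
  -- the shift
  obtain ⟨g₁, hg₁, s1, s2, s3, s4⟩ := hsh H c1 x (hx.trans hQN) (hxc.trans hdρ) y
    (hy.trans hRN) (hyc.trans hdρ) q hqH (hqc.trans hdρ) r hrH (hrc.trans hdρ)
  -- the first peeling
  let z : Set C := (k '' r) ∪ ((fun a => g₁ (k a)) '' y)
  have hzN : z ⊆ k '' N := by
    rintro _ (⟨a, ha, rfl⟩ | ⟨a, ha, rfl⟩)
    · exact mem_image_of_mem k (hrH ha).1
    · obtain ⟨b, hb, hb'⟩ := s4 a ha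
      exact ⟨b, hb.1, hb'⟩
  have hzc : #z ≤ d + d := (mk_union_le _ _).trans (add_le_add (mk_image_le.trans hrc)
    (mk_image_le.trans hyc))
  have htr' : ∀ z : Set C, #z < τ → (pg h₀ hK hunb hst hCm hs hCc).Ind P N z →
      (pg h₀ hK hunb hst hCm hs hCc).IndT τ (P ∩ H) (N ∩ H) z := by
    intro z hzc hz A hA hAc B hB hBc
    refine (htr H c2).2 N z hz A ?_ hAc B hB hBc
    rintro a ha
    rcases hA ha with h | h
    · exact ⟨Or.inl h.1, h.2⟩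
    · exact ⟨Or.inr h.1, h.2⟩
  obtain ⟨g₂, hg₂, t1, t2, t3⟩ := pg_move h₀ hK hunb hst hCm hs hCc hτ hτθ hPH hQH hNH
    (fun a ha => ⟨hPQ ha.1, ha.2⟩) (fun a ha => ⟨hQN ha.1, ha.2⟩) (hzc.trans_lt hdd)
    (htr' z (hzc.trans_lt hdd) (hA z hzN (hzc.trans hdν))) (x := g₁ '' x) (by
      rintro _ ⟨a, ha, rfl⟩
      exact s3 a ha) (mk_image_le.trans_lt (hxc.trans_lt hd)) hq (hqc.trans_lt hd)
  -- the second peeling
  let z' : Set C := q ∪ ((fun a => g₂ (g₁ a)) '' x)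
  have hz'Q : z' ⊆ Q ∩ H := by
    rintro _ (ha | ⟨a, ha, rfl⟩)
    · exact hq ha
    · exact t3 _ ⟨a, ha, rfl⟩
  have hz'c : #z' ≤ d + d := (mk_union_le _ _).trans (add_le_add hqc (mk_image_le.trans hxc))
  have hk' : k⁻¹ ∈ autG L C := inv_mem hk
  have hkP' : ∀ a ∈ P, k⁻¹ a = a := fun a ha => fix_inv (hkP a ha)
  have hIz : (pg h₀ hK hunb hst hCm hs hCc).Ind P N ((k⁻¹ : Equiv.Perm C) '' z') := by
    have h1 := (hB z' (hz'Q.trans fun a ha => hQN ha.1) hz'c).smul hk'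
    rw [image_eq_of_fix hkP'] at h1
    have h2 : (k⁻¹ : Equiv.Perm C) '' (k '' N) = N := by
      rw [image_image]
      simp only [inv_ap, image_id']
    rwa [h2] at h1
  obtain ⟨g₃, hg₃, u1, u2, u3⟩ := pg_move h₀ hK hunb hst hCm hs hCc hτ hτθ hPH hRH hNH
    (fun a ha => ⟨hPR ha.1, ha.2⟩) (fun a ha => ⟨hRN ha.1, ha.2⟩)
    (z := (k⁻¹ : Equiv.Perm C) '' z') ((mk_image_le.trans hz'c).trans_lt hdd)
    (htr' _ ((mk_image_le.trans hz'c).trans_lt hdd) hIz)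
    (x := (fun a => k⁻¹ (g₁ (k a))) '' y) (by
      rintro _ ⟨a, ha, rfl⟩
      obtain ⟨b, hb, hb'⟩ := s4 a ha
      change k⁻¹ (g₁ (k a)) ∈ N ∩ H
      rw [← hb', inv_ap]
      exact hb) (mk_image_le.trans_lt (hyc.trans_lt hd)) hr (hrc.trans_lt hd)
  -- the composition
  let G : Equiv.Perm C := (k * g₃ * k⁻¹) * (g₂ * g₁)
  have hG : G ∈ autG L C :=
    mul_mem (mul_mem (mul_mem hk hg₃) hk') (mul_mem hg₂ hg₁)
  have hG' : ∀ a, G a = k (g₃ (k⁻¹ (g₂ (g₁ a)))) := fun a => rfl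
  have hz3 : ∀ a ∈ z', k (g₃ (k⁻¹ a)) = a := by
    intro a ha
    rw [u2 _ ⟨a, ha, rfl⟩, ap_inv]
  have e3 : ∀ a ∈ q, G a = a := by
    intro a ha
    rw [hG', s1 a ha, t1 a ha]
    exact hz3 a (Or.inl ha)
  have e4 : ∀ a ∈ r, G (k a) = k a := by
    intro a ha
    rw [hG', s2 a ha, t2 (k a) (Or.inl ⟨a, ha, rfl⟩), inv_ap, u1 a ha]
  have e5 : ∀ a ∈ x, G a ∈ Q ∩ H := by
    intro a ha
    rw [hG', hz3 _ (Or.inr ⟨a, ha, rfl⟩)]
    exact t3 _ ⟨a, ha, rfl⟩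
  have e6 : ∀ a ∈ y, G (k a) ∈ k '' (R ∩ H) := by
    intro a ha
    rw [hG', t2 _ (Or.inr ⟨a, ha, rfl⟩)]
    exact mem_image_of_mem k (u3 _ ⟨a, ha, rfl⟩)
  obtain ⟨h', hh', h1', h2'⟩ := hgl (q ∪ (G '' x))
    (union_subset (hq.trans inter_subset_left) (by
      rintro _ ⟨a, ha, rfl⟩
      exact (e5 a ha).1))
    ((mk_union_le _ _).trans (add_le_add hqc (mk_image_le.trans hxc)))
    (r ∪ ((fun a => k⁻¹ (G (k a))) '' y))
    (union_subset (hr.trans inter_subset_left) (by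
      rintro _ ⟨a, ha, rfl⟩
      obtain ⟨b, hb, hb'⟩ := e6 a ha
      change k⁻¹ (G (k a)) ∈ R
      rw [← hb', inv_ap]
      exact hb.1))
    ((mk_union_le _ _).trans (add_le_add hrc (mk_image_le.trans hyc)))
  refine exists_conj_move (M := pg h₀ hK hunb hst hCm hs hCc) (k := k) hh hh' hG hh1 hh2 e3 e4 e5
    e6 h1' (fun a ha => h2' a (Or.inl ha)) ?_
  rintro a - ⟨b, hb, hb'⟩
  refine h2' a (Or.inr ⟨b, hb, ?_⟩)
  change k⁻¹ (G (k b)) = a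
  change G (k b) = k a at hb'
  rw [hb', inv_ap]

/-- **Joint reflection of two submodels which are independent over a submodel**, over the pieces of
the traces of the two submodels. -/
theorem pg_jr2 (hτ : BasePt K ℓ κf α τ) (hτθ : τ < θ)
    {P Q R : Set C} (hP : P ∈ (pg h₀ hK hunb hst hCm hs hCc).S)
    (hQ : Q ∈ (pg h₀ hK hunb hst hCm hs hCc).S) (hR : R ∈ (pg h₀ hK hunb hst hCm hs hCc).S)
    (hPQ : P ⊆ Q) (hPR : P ⊆ R) (hI : (pg h₀ hK hunb hst hCm hs hCc).Ind P Q R) :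
    ∃ φ : Finset C → Set C, (∀ s, #(φ s) ≤ τ) ∧ ∀ H, Clo φ H → #H ≤ τ →
      ∀ x ⊆ Q, #x < τ → ∀ y ⊆ R, #y < τ → ∀ q ⊆ (Q ∪ R) ∩ H, #q < τ →
        ∃ g ∈ autG L C, (∀ a ∈ q, g a = a) ∧ (∀ a ∈ x, g a ∈ Q ∩ H) ∧ ∀ a ∈ y, g a ∈ R ∩ H := by
  classical
  have hτ0 := aleph0_le_pt hτ hK
  have h1 : ∀ d : Cardinal.{u}, ∃ φ : Finset C → Set C, d < τ → (∀ s, #(φ s) ≤ τ) ∧
      ∀ H, Clo φ H → #H ≤ τ →
        ∀ x ⊆ Q, #x ≤ d → ∀ y ⊆ R, #y ≤ d → ∀ q ⊆ Q ∩ H, #q ≤ d → ∀ r ⊆ R ∩ H, #r ≤ d →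
          ∃ g ∈ autG L C, (∀ a ∈ q, g a = a) ∧ (∀ a ∈ r, g a = a) ∧ (∀ a ∈ x, g a ∈ Q ∩ H) ∧
            ∀ a ∈ y, g a ∈ R ∩ H := by
    intro d
    by_cases hd : d < τ
    · obtain ⟨φ, h1, h2⟩ := jr2_level h₀ hK hunb hst hCm hs hCc hτ hτθ hd hP hQ hR hPQ hPR hI
      exact ⟨φ, fun _ => ⟨h1, h2⟩⟩
    · exact ⟨fun _ => ∅, fun h => absurd h hd⟩
  choose Φ hΦ using h1
  obtain ⟨φ, h2, h3⟩ := exists_clo_all' hτ0 Φ fun d hd => (hΦ d hd).1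
  refine ⟨φ, h2, fun H hH hHc x hx hxc y hy hyc q hq hqc => ?_⟩
  have hd : max #x (max #y #q) < τ := max_lt hxc (max_lt hyc hqc)
  obtain ⟨g, hg, g1, g2, g3, g4⟩ := (hΦ _ hd).2 H (h3 _ hd H hH) hHc x hx (le_max_left _ _) y hy
    ((le_max_left _ _).trans (le_max_right _ _)) (q ∩ Q) (fun a ha => ⟨ha.2, (hq ha.1).2⟩)
    ((mk_le_mk_of_subset inter_subset_left).trans ((le_max_right _ _).trans (le_max_right _ _)))
    (q ∩ R) (fun a ha => ⟨ha.2, (hq ha.1).2⟩)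
    ((mk_le_mk_of_subset inter_subset_left).trans ((le_max_right _ _).trans (le_max_right _ _)))
  refine ⟨g, hg, fun a ha => ?_, g3, g4⟩
  rcases (hq ha).1 with h | h
  · exact g1 a ⟨ha, h⟩
  · exact g2 a ⟨ha, h⟩

open H533 H806 in
open scoped Classical in
/-- **Joint reflection for the proper faces of a square** into the closed traces. -/
theorem pg_jr_one (hτ : BasePt K ℓ κf α τ) (hτθ : τ < θ) {ι : Type v} {A : Finset ι → Set C}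
    {S : Finset ι} {c : ι} (hS : S.card = 1) (h : Ext1 (pg h₀ hK hunb hst hCm hs hCc) A S c) :
    ∃ φ : Finset C → Set C, (∀ s, #(φ s) ≤ τ) ∧ ∀ H, Clo φ H → #H ≤ τ →
      (pg h₀ hK hunb hst hCm hs hCc).JR τ A (insert c S).ssubsets H
        (ibd A (insert c S) ∩ H) := by
  obtain ⟨b, rfl⟩ := Finset.card_eq_one.1 hS
  have hcb : c ≠ b := fun hc => h.notMem (by simp [hc])
  have hP : A ∅ ∈ (pg h₀ hK hunb hst hCm hs hCc).S := h.sys.mem (Finset.empty_subset _)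
  have hR : A {b} ∈ (pg h₀ hK hunb hst hCm hs hCc).S := h.sys.mem Finset.Subset.rfl
  have hPR : A ∅ ⊆ A {b} := h.sys.mono Finset.Subset.rfl (Finset.empty_subset _)
  obtain ⟨φ, h1, h2⟩ := pg_jr2 h₀ hK hunb hst hCm hs hCc hτ hτθ hP h.memc hR h.base hPR h.ind
  have hface : ∀ v ∈ (insert c ({b} : Finset ι)).ssubsets, v = ∅ ∨ v = {c} ∨ v = {b} := by
    intro v hv
    rw [Finset.mem_ssubsets] at hv
    have h3 := Finset.card_lt_card hv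
    rw [Finset.card_insert_of_notMem h.notMem, Finset.card_singleton] at h3
    rcases Nat.lt_or_ge v.card 1 with h4 | h4
    · exact Or.inl (Finset.card_eq_zero.1 (by omega))
    · obtain ⟨x, rfl⟩ := Finset.card_eq_one.1 (show v.card = 1 by omega)
      have h5 : x ∈ insert c ({b} : Finset ι) := hv.1 (Finset.mem_singleton_self x)
      rcases Finset.mem_insert.1 h5 with rfl | h5
      · exact Or.inr (Or.inl rfl)
      · rw [Finset.mem_singleton.1 h5]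
        exact Or.inr (Or.inr rfl)
  refine ⟨φ, h1, fun H hH hHc E hE hEc q hq hqc => ?_⟩
  obtain ⟨g, hg, g1, g2, g3⟩ := h2 H hH hHc (E ∩ A {c}) inter_subset_right
    ((mk_le_mk_of_subset inter_subset_left).trans_lt hEc) (E ∩ A {b}) inter_subset_right
    ((mk_le_mk_of_subset inter_subset_left).trans_lt hEc) q (by
      intro a ha
      obtain ⟨⟨v, hv, hav⟩, haH⟩ := hq ha
      refine ⟨?_, haH⟩
      rcases hface v (Finset.mem_ssubsets.2 hv) with rfl | rfl | rfl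
      · exact Or.inl (h.base hav)
      · exact Or.inl hav
      · exact Or.inr hav) hqc
  refine ⟨g, hg, g1, fun v hv e he hev => ?_⟩
  rcases hface v hv with rfl | rfl | rfl
  · have h3 := g2 e ⟨he, h.base hev⟩
    have h4 := g3 e ⟨he, hPR hev⟩
    exact ⟨h.ind.inter_sub ⟨h3.1, h4.1⟩, h3.2⟩
  · exact g2 e ⟨he, hev⟩
  · exact g3 e ⟨he, hev⟩

end

end Vale.Agent.P307.R2.H319
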