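import Vale.Agent.P307.R2.H806.Two
import Vale.Agent.P307.R2.H68.Ec

/-!
Moving small pieces of a model `N` into a submodel `Q`, over pieces of `Q` and over a set which is
independent from `N` over `P ⊆ Q`; one level and two levels.
-/

universe u

open Set Cardinal Function

namespace Vale.Agent.P307.R2.H319

open Vale.Agent.P307.R2.H541 Vale.Agent.P307.R2.H541.PG
open Vale.Agent.P307.R2.H68 (Clo)

variable {C : Type u} {M : PG C}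

/-- One level. -/
theorem exists_move (hM : M.Calc) {P Q N z x a : Set C} (hP : P ∈ M.S) (hQ : Q ∈ M.S)
    (hPQ : P ⊆ Q) (hQN : Q ⊆ N) (hz : #z < M.χ) (hI : M.Ind P N z) (hx : x ⊆ N) (hxc : #x < M.χ)
    (ha : a ⊆ Q) (hac : #a < M.χ) :
    ∃ g ∈ M.G, (∀ y ∈ a, g y = y) ∧ (∀ y ∈ z, g y = y) ∧ ∀ y ∈ x, g y ∈ Q := by
  obtain ⟨p, hp, hpc, hb⟩ := hM.based hP hz
  obtain ⟨g, hg, h1, h2⟩ := M.sat hQ (A := p ∪ a) (B := x) (union_subset (hp.trans hPQ) ha)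
    (small_union hpc hac) hxc
  have h3 := hM.sym hP hI
  have h4 : M.Ind P z (x ∪ a) := h3.mono Subset.rfl (union_subset hx (ha.trans hQN))
  have h5 : M.Ind P z (g '' (x ∪ a)) := by
    refine h3.mono Subset.rfl ?_
    rintro _ ⟨y, hy | hy, rfl⟩
    · exact hQN (h2 y hy)
    · rw [h1 y (Or.inr hy)]
      exact hQN (ha hy)
  obtain ⟨h, hh, -, h7, h8⟩ := hb g hg (fun y hy => h1 y (Or.inl hy)) (x ∪ a)
    (small_union hxc hac) h4 h5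
  refine ⟨h, hh, fun y hy => ?_, h7, fun y hy => ?_⟩
  · rw [h8 y (Or.inr hy), h1 y (Or.inr hy)]
  · rw [h8 y (Or.inl hy)]
    exact h2 y hy

/-- Two levels. -/
theorem exists_move_low {D : Set C} {M' : PG D} (hL : M.Low D M') (hM' : M'.Calc)
    {P Q N z x a : Set C} (hP : tr D P ∈ M'.S) (hQ : tr D Q ∈ M'.S) (hND : N ⊆ D) (hzD : z ⊆ D)
    (hPQ : P ⊆ Q) (hQN : Q ⊆ N) (hz : #z < M'.χ) (hI : M.IndT M'.χ P N z) (hx : x ⊆ N)
    (hxc : #x < M'.χ) (ha : a ⊆ Q) (hac : #a < M'.χ) :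
    ∃ g ∈ M.G, (∀ y ∈ a, g y = y) ∧ (∀ y ∈ z, g y = y) ∧ ∀ y ∈ x, g y ∈ Q := by
  have hQD : Q ⊆ D := hQN.trans hND
  have hxD : x ⊆ D := hx.trans hND
  have haD : a ⊆ D := ha.trans hQD
  have h1 := hL.ind_dn (hPQ.trans hQD) hI
  obtain ⟨g', hg', h2, h3, h4⟩ := exists_move hM' hP hQ (tr_mono hPQ) (tr_mono hQN)
    (by rwa [mk_tr hzD]) h1 (x := tr D x) (tr_mono hx) (by rwa [mk_tr hxD]) (a := tr D a)
    (tr_mono ha) (by rwa [mk_tr haD])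
  obtain ⟨g, hg, h5⟩ := hL.up' (A := (x ∪ a) ∪ z) (union_subset (union_subset hxD haD) hzD)
    (small_union' (small_union' hxc hac) hz) hg'
  refine ⟨g, hg, fun y hy => ?_, fun y hy => ?_, fun y hy => ?_⟩
  · rw [h5 ⟨y, haD hy⟩ (Or.inl (Or.inr hy)), h2 ⟨y, haD hy⟩ hy]
  · rw [h5 ⟨y, hzD hy⟩ (Or.inr hy), h3 ⟨y, hzD hy⟩ hy]
  · rw [h5 ⟨y, hxD hy⟩ (Or.inl (Or.inl hy))]
    exact h4 ⟨y, hxD hy⟩ hy

/-- A family of finitary operations, one for each cardinal below `τ`, has a common refinement. -/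
theorem exists_clo_all' {τ : Cardinal.{u}} (hτ : ℵ₀ ≤ τ) (Φ : Cardinal.{u} → (Finset C → Set C))
    (hΦ : ∀ d < τ, ∀ s, #(Φ d s) ≤ τ) :
    ∃ φ : Finset C → Set C, (∀ s, #(φ s) ≤ τ) ∧ ∀ d < τ, ∀ H, Clo φ H → Clo (Φ d) H := by
  have hlt : ∀ y : τ.ord.ToType, #(Iio y) < τ := fun y => by simpa using mk_Iio_lt y
  refine ⟨fun s => ⋃ y : τ.ord.ToType, Φ #(Iio y) s, fun s => ?_, fun d hd => ?_⟩
  · refine (mk_iUnion_le _).trans ?_
    refine (mul_le_mul' ?_ (ciSup_le' fun (y : τ.ord.ToType) => hΦ _ (hlt y) s)).trans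
      (mul_eq_self hτ).le
    rw [mk_toType, card_ord]
  · have h1 : d.ord < Ordinal.type (α := τ.ord.ToType) (· < ·) := by
      rw [Ordinal.type_toType]
      exact ord_lt_ord.2 hd
    obtain ⟨y, hy⟩ := Ordinal.typein_surj (α := τ.ord.ToType) (· < ·) h1
    have h2 := Ordinal.card_typein (α := τ.ord.ToType) (r := (· < ·)) y
    rw [hy, card_ord] at h2
    have h3 : #(Iio y) = d := h2.symm
    refine fun H hH => hH.mono fun s => ?_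
    have h4 : Φ #(Iio y) s ⊆ ⋃ y : τ.ord.ToType, Φ #(Iio y) s :=
      subset_iUnion (fun y : τ.ord.ToType => Φ #(Iio y) s) y
    rw [h3] at h4
    exact h4

/-- Composition of two charts which are automorphisms on the two faces. -/
theorem exists_conj_move {q r x y : Set C} {k h h' G : Equiv.Perm C} (hh : h ∈ M.G)
    (hh' : h' ∈ M.G) (hG : G ∈ M.G) {Q R : Set C}
    (h1 : ∀ a ∈ q ∪ x, h a = a) (h2 : ∀ a ∈ r ∪ y, h a = k a) (h3 : ∀ a ∈ q, G a = a)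
    (h4 : ∀ a ∈ r, G (k a) = k a) (h5 : ∀ a ∈ x, G a ∈ Q) (h6 : ∀ a ∈ y, G (k a) ∈ k '' R)
    (h7 : ∀ a ∈ q ∪ (G '' x), h' a = a) (h8 : ∀ a ∈ r, h' a = k a)
    (h9 : ∀ a ∈ R, k a ∈ (fun b => G (k b)) '' y → h' a = k a) :
    ∃ g ∈ M.G, (∀ a ∈ q, g a = a) ∧ (∀ a ∈ r, g a = a) ∧ (∀ a ∈ x, g a ∈ Q) ∧
      ∀ a ∈ y, g a ∈ R := by
  refine ⟨h'⁻¹ * (G * h), M.G.mul_mem (M.G.inv_mem hh') (M.G.mul_mem hG hh), fun a ha => ?_,
    fun a ha => ?_, fun a ha => ?_, fun a ha => ?_⟩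
  · change h'⁻¹ (G (h a)) = a
    rw [h1 a (Or.inl ha), h3 a ha]
    exact fix_inv (h7 a (Or.inl ha))
  · change h'⁻¹ (G (h a)) = a
    rw [h2 a (Or.inl ha), h4 a ha, ← h8 a ha, inv_ap]
  · change h'⁻¹ (G (h a)) ∈ Q
    rw [h1 a (Or.inr ha), fix_inv (h7 (G a) (Or.inr ⟨a, ha, rfl⟩))]
    exact h5 a ha
  · change h'⁻¹ (G (h a)) ∈ R
    rw [h2 a (Or.inr ha)]
    obtain ⟨b, hb, hb'⟩ := h6 a ha
    have h10 := h9 b hb ⟨a, ha, hb'.symm⟩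
    rw [← hb', ← h10, inv_ap]
    exact hb

end Vale.Agent.P307.R2.H319
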