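import Vale.Agent.P307.R2.H732.TmL
import Vale.Agent.P307.R2.H806.RealX

/-!
A map which is elementary on `X` and on the pieces of a fixed size of a larger set `Y`, which
reflects into `X`, extends to every set which is isolated over `X`.
-/

universe u

open Set Cardinal Function

namespace Vale.Agent.P307.R2.H319

open Vale.Agent.P307.R2.H541 Vale.Agent.P307.R2.H541.PG

variable {C : Type u} {M : PG C} {X Y R b : Set C} {f : C → C} {d H : Cardinal.{u}}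

theorem le_inj (hf : M.LE f X) : InjOn f X := by
  intro x hx y hy hxy
  obtain ⟨g, -, hg⟩ := hf {x, y} (by
    rintro z (rfl | rfl)
    · exact hx
    · exact hy) (small_finite (toFinite _))
  exact g.injective ((hg x (Or.inl rfl)).trans (hxy.trans (hg y (Or.inr rfl)).symm))

/-- The map is elementary on the union of a piece of `Y` of a fixed size and of a small subset of
`X`. -/
theorem exists_le_small (hR : M.Real) (hXY : X ⊆ Y) (hXc : #X ≤ M.χ) (hf : M.LE f X)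
    (hd : d < M.χ) (hH : H < M.χ) (hfY : M.LEL (d + H) f Y) (hT : ∀ ρ < M.χ, M.TmL d H ρ X)
    {y A : Set C} (hy : y ⊆ Y) (hyc : #y ≤ d) (hA : A ⊆ X) (hAc : #A < M.χ) :
    ∃ k ∈ M.G, (∀ x ∈ y, k x = f x) ∧ ∀ x ∈ A, k x = f x := by
  classical
  have hinj := le_inj hf
  obtain ⟨f', hf'⟩ : ∃ f' : C → C, ∀ x ∈ X, f' (f x) = x := by
    refine ⟨fun z => if h : ∃ x ∈ X, f x = z then h.choose else z, fun x hx => ?_⟩
    have h : ∃ x' ∈ X, f x' = f x := ⟨x, hx, rfl⟩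
    change (if h : ∃ x' ∈ X, f x' = f x then h.choose else f x) = x
    rw [dif_pos h]
    exact hinj h.choose_spec.1 hx h.choose_spec.2
  have hf'L : M.LE f' (f '' X) := by
    intro A' hA' hA'c
    obtain ⟨g, hg, hgf⟩ := hf (X ∩ f' '' A') inter_subset_left
      (small_subset inter_subset_right (small_image f' hA'c))
    refine ⟨g⁻¹, M.G.inv_mem hg, fun a ha => ?_⟩
    obtain ⟨x, hx, rfl⟩ := hA' ha
    rw [hf' x hx, ← hgf x ⟨hx, f x, ha, hf' x hx⟩, inv_ap]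
  obtain ⟨e, he⟩ := hR.exists_of_le (E := f '' y) (mk_image_le.trans hXc) hf'L
    (ν := max H #A) (max_lt hH hAc) (mk_image_le.trans_lt (hyc.trans_lt hd))
  have he' : ∀ A₁ ⊆ X, #A₁ ≤ max H #A → ∃ g ∈ M.G, (∀ a ∈ A₁, g (f a) = a) ∧
      ∀ x ∈ y, g (f x) = e (f x) := by
    intro A₁ hA₁ hA₁c
    obtain ⟨g, hg, h1, h2⟩ := he (f '' A₁) (image_mono hA₁) (mk_image_le.trans hA₁c)
    exact ⟨g, hg, fun a ha => (h1 _ ⟨a, ha, rfl⟩).trans (hf' a (hA₁ ha)), fun x hx =>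
      h2 _ ⟨x, hx, rfl⟩⟩
  obtain ⟨g₁, hg₁, -, h1⟩ := he' ∅ (empty_subset _) (by simp)
  obtain ⟨g₀, hg₀, h0⟩ := hfY y hy (hyc.trans (self_le_add_right _ _))
  have hγ : ∀ x ∈ y, (g₁ * g₀) x = e (f x) := fun x hx => by
    rw [Equiv.Perm.mul_apply, h0 x hx, h1 x hx]
  obtain ⟨h, hh, h2, h3⟩ := hT #A hAc y hyc (g₁ * g₀) (M.G.mul_mem hg₁ hg₀) (by
    intro A₁ hA₁ hA₁c
    obtain ⟨g₀', hg₀', h4⟩ := hfY (y ∪ A₁) (union_subset hy (hA₁.trans hXY))
      ((mk_union_le _ _).trans (add_le_add hyc hA₁c))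
    obtain ⟨g₁', hg₁', h5, h6⟩ := he' A₁ hA₁ (hA₁c.trans (le_max_left _ _))
    refine ⟨g₁' * g₀', M.G.mul_mem hg₁' hg₀', fun a ha => ?_, fun x hx => ?_⟩
    · rw [Equiv.Perm.mul_apply, h4 a (Or.inr ha), h5 a ha]
    · rw [hγ x hx, Equiv.Perm.mul_apply, h4 x (Or.inl hx), h6 x hx]) A hA le_rfl
  obtain ⟨g₂, hg₂, h7, h8⟩ := he' A hA (le_max_right _ _)
  refine ⟨g₂⁻¹ * h, M.G.mul_mem (M.G.inv_mem hg₂) hh, fun x hx => ?_, fun x hx => ?_⟩
  · rw [Equiv.Perm.mul_apply, h3 x hx, hγ x hx, ← h8 x hx, inv_ap]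
  · rw [Equiv.Perm.mul_apply, h2 x hx]
    exact Equiv.Perm.inv_eq_iff_eq.2 (h7 x hx).symm

/-- **Maps which are elementary on `X` extend to the sets which are isolated over `X`**, and are
then elementary on the pieces of a fixed size of the union. -/
theorem exists_lel_over (hR : M.Real) (hXY : X ⊆ Y) (hXc : #X ≤ M.χ) (hf : M.LE f X)
    (hd : d < M.χ) (hH : H < M.χ) (hfY : M.LEL (d + H) f Y) (hT : ∀ ρ < M.χ, M.TmL d H ρ X)
    (hTV : M.TV X Y) (hb : b ⊆ X) (hbc : #b < M.χ) (hI : M.Isol b X R) :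
    ∃ f' : C → C, (∀ x ∈ Y, f' x = f x) ∧ M.LEL d f' (Y ∪ R) := by
  classical
  obtain ⟨g₀, hg₀, h0⟩ := hf b hb hbc
  have key : ∀ E ⊆ Y, #E ≤ d → ∃ h ∈ M.G, (∀ x ∈ E, h x = f x) ∧ ∀ x ∈ R, h x = g₀ x := by
    intro E hE hEc
    obtain ⟨k, hk, h1, h2⟩ := exists_le_small hR hXY hXc hf hd hH hfY hT hE hEc hb hbc
    have hI' := hI.lift (hTV.mono (union_subset hXY hE)) hb hbc
    obtain ⟨m, hm, h3, h4⟩ := hI' (k⁻¹ * g₀) (M.G.mul_mem (M.G.inv_mem hk) hg₀)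
      (fun x hx => by
        rw [Equiv.Perm.mul_apply, h0 x hx, ← h2 x hx, inv_ap]) E subset_union_right
      (hEc.trans_lt hd)
    refine ⟨k * m, M.G.mul_mem hk hm, fun x hx => ?_, fun x hx => ?_⟩
    · rw [Equiv.Perm.mul_apply, h3 x hx, h1 x hx]
    · rw [Equiv.Perm.mul_apply, h4 x hx, Equiv.Perm.mul_apply, ap_inv]
  refine ⟨fun x => if x ∈ Y then f x else g₀ x, fun x hx => if_pos hx, fun A hA hAc => ?_⟩
  obtain ⟨h, hh, h1, h2⟩ := key (A ∩ Y) inter_subset_right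
    ((mk_le_mk_of_subset inter_subset_left).trans hAc)
  refine ⟨h, hh, fun x hx => ?_⟩
  change h x = if x ∈ Y then f x else g₀ x
  by_cases hxY : x ∈ Y
  · rw [if_pos hxY]
    exact h1 x ⟨hx, hxY⟩
  · rw [if_neg hxY]
    exact h2 x ((hA hx).resolve_left hxY)

end Vale.Agent.P307.R2.H319
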